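import Vale.Agent.P302.Bridge

open Vale.Agent.P302

/-- Bin packing and its configuration LP; `V = ∑ j, a j` is the total size and `k = ⌈LP⌉`.
(0) `LP ≤ OPT` and `V ≤ LP`.
(1) `OPT ≤ k + 1` if the items larger than `(k + 1 - V) / k` belong to a subfamily whose LP value
is at most `4`. (2) `OPT ≤ k + 1` if `LP ≤ 4`. (3) `OPT ≤ k + 1` if `V ≤ 2 k / 3 + 1`.
(4) `OPT ≤ k + 1` if the items of size in `((k + 1 - V) / k, 1/3]` have total size at most `1`.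
(5) `OPT ≤ k + q` if the items of size in `((k + q - V) / (k + q - 1), 1/3]` can be packed into
`q ≥ 1` bins. (6) `OPT = k` if all sizes are greater than `1/3`. -/
theorem Vale.Agent.Results.P302.Combined.result :
    (∀ (n : ℕ) (a : Fin n → ℚ), IsInstance a →
      LP a ≤ OPT a ∧ ((∑ j, a j : ℚ) : ℝ) ≤ LP a) ∧
    (∀ (n : ℕ) (a : Fin n → ℚ), IsInstance a → ∀ (m : ℕ) (e : Fin m → Fin n),
      Function.Injective e →
      (∀ i, ((⌈LP a⌉₊ : ℚ) + 1 - ∑ j, a j) / (⌈LP a⌉₊ : ℚ) < a i → ∃ j, e j = i) →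
      LP (a ∘ e) ≤ 4 → OPT a ≤ ⌈LP a⌉₊ + 1) ∧
    (∀ (n : ℕ) (a : Fin n → ℚ), IsInstance a → LP a ≤ 4 → OPT a ≤ ⌈LP a⌉₊ + 1) ∧
    (∀ (n : ℕ) (a : Fin n → ℚ), IsInstance a → ∑ j, a j ≤ 2 / 3 * (⌈LP a⌉₊ : ℚ) + 1 →
      OPT a ≤ ⌈LP a⌉₊ + 1) ∧
    (∀ (n : ℕ) (a : Fin n → ℚ), IsInstance a →
      (∑ i with (((⌈LP a⌉₊ : ℚ) + 1 - ∑ j, a j) / (⌈LP a⌉₊ : ℚ) < a i ∧ a i ≤ 1 / 3), a i ≤ 1) →
      OPT a ≤ ⌈LP a⌉₊ + 1) ∧
    (∀ (n : ℕ) (a : Fin n → ℚ), IsInstance a → ∀ q : ℕ, 1 ≤ q →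
      (∃ f : Fin n → Fin q, ∀ b : Fin q,
        ∑ i with (((⌈LP a⌉₊ : ℚ) + q - ∑ j, a j) / ((⌈LP a⌉₊ : ℚ) + q - 1) < a i ∧
          a i ≤ 1 / 3 ∧ f i = b), a i ≤ 1) →
      OPT a ≤ ⌈LP a⌉₊ + q) ∧
    (∀ (n : ℕ) (a : Fin n → ℚ), IsInstance a → (∀ i, 1 / 3 < a i) → OPT a = ⌈LP a⌉₊) := by
  classical
  have key : ∀ (n : ℕ) (a : Fin n → ℚ), IsInstance a → ∀ q : ℕ, 1 ≤ q →
      (∃ f : Fin n → Fin q, ∀ b : Fin q,
        ∑ i with (((⌈LP a⌉₊ : ℚ) + q - ∑ j, a j) / ((⌈LP a⌉₊ : ℚ) + q - 1) < a i ∧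
          a i ≤ 1 / 3 ∧ f i = b), a i ≤ 1) →
      OPT a ≤ ⌈LP a⌉₊ + q := by
    intro n a ha q hq ⟨f, hf⟩
    apply Nat.sInf_le
    have htot := total_le' ha (Nat.le_ceil (LP a))
    have hq' : (1 : ℚ) ≤ q := by exact_mod_cast hq
    refine main_gen ha hq (Nat.le_ceil _)
      (((⌈LP a⌉₊ : ℚ) + q - ∑ j, a j) / ((⌈LP a⌉₊ : ℚ) + q - 1)) (fun i hi => ?_)
      ⟨f, fun b => ?_⟩
    · have hk : (0 : ℚ) < (⌈LP a⌉₊ : ℚ) := by
        have h6 : a i ≤ ∑ j, a j :=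
          Finset.single_le_sum (fun j _ => (ha j).1.le) (Finset.mem_univ i)
        have := (ha i).1
        linarith
      have hD : (0 : ℚ) < (⌈LP a⌉₊ : ℚ) + q - 1 := by linarith
      rw [le_div_iff₀ hD] at hi
      push_cast
      linarith
    · refine le_trans (Finset.sum_le_sum_of_subset_of_nonneg ?_ (fun i _ _ => (ha i).1.le)) (hf b)
      intro i hi
      rw [Finset.mem_filter, Finset.mem_filter] at hi
      obtain ⟨⟨_, h1, h2⟩, h3⟩ := hi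
      rw [Finset.mem_filter]
      exact ⟨Finset.mem_univ _, h1, h2, h3⟩
  have key2 : ∀ (n : ℕ) (a : Fin n → ℚ), IsInstance a →
      (∑ i with (((⌈LP a⌉₊ : ℚ) + 1 - ∑ j, a j) / (⌈LP a⌉₊ : ℚ) < a i ∧ a i ≤ 1 / 3), a i ≤ 1) →
      OPT a ≤ ⌈LP a⌉₊ + 1 := by
    intro n a ha h
    refine key n a ha 1 le_rfl ⟨fun _ => 0, fun b => ?_⟩
    refine le_trans (Finset.sum_le_sum_of_subset_of_nonneg ?_ (fun i _ _ => (ha i).1.le)) h
    intro i hi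
    rw [Finset.mem_filter] at hi ⊢
    refine ⟨hi.1, ?_, hi.2.2.1⟩
    have h1 := hi.2.1
    rw [Nat.cast_one, add_sub_cancel_right] at h1
    exact h1
  have key3 : ∀ (n : ℕ) (a : Fin n → ℚ), IsInstance a →
      ∑ j, a j ≤ 2 / 3 * (⌈LP a⌉₊ : ℚ) + 1 → OPT a ≤ ⌈LP a⌉₊ + 1 := by
    intro n a ha h3
    apply key2 n a ha
    have htot := total_le' ha (Nat.le_ceil (LP a))
    have he : (Finset.univ.filter fun i => ((⌈LP a⌉₊ : ℚ) + 1 - ∑ j, a j) / (⌈LP a⌉₊ : ℚ) < a i ∧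
        a i ≤ 1 / 3) = ∅ := by
      apply Finset.filter_eq_empty_iff.2
      rintro i _ ⟨h1, h2⟩
      have hk : (0 : ℚ) < (⌈LP a⌉₊ : ℚ) := by
        have h6 : a i ≤ ∑ j, a j :=
          Finset.single_le_sum (fun j _ => (ha j).1.le) (Finset.mem_univ i)
        have := (ha i).1
        linarith
      rw [div_lt_iff₀ hk] at h1
      nlinarith
    rw [he, Finset.sum_empty]
    norm_num
  have key4 : ∀ (n : ℕ) (a : Fin n → ℚ), IsInstance a → ∀ (m : ℕ) (e : Fin m → Fin n),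
      Function.Injective e →
      (∀ i, ((⌈LP a⌉₊ : ℚ) + 1 - ∑ j, a j) / (⌈LP a⌉₊ : ℚ) < a i → ∃ j, e j = i) →
      LP (a ∘ e) ≤ 4 → OPT a ≤ ⌈LP a⌉₊ + 1 := by
    intro n a ha m e he hs h4
    by_cases h3 : ⌈LP a⌉₊ ≤ 3
    · apply key3 n a ha
      have htot := total_le' ha (Nat.le_ceil (LP a))
      have h5 : (⌈LP a⌉₊ : ℚ) ≤ 3 := by exact_mod_cast h3
      linarith
    · apply Nat.sInf_le
      have hae : IsInstance (a ∘ e) := fun i => ha (e i)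
      refine packs_of_sub ha (by omega) e he (packs_mono (by omega) (five hae h4))
        (fun i hi => ?_)
      have h5 : a i ≤ ((⌈LP a⌉₊ : ℚ) + 1 - ∑ j, a j) / (⌈LP a⌉₊ : ℚ) := by
        by_contra hc
        obtain ⟨j, hj⟩ := hs i (not_le.1 hc)
        exact hi j hj
      have hk : (0 : ℚ) < (⌈LP a⌉₊ : ℚ) := by
        have : 0 < ⌈LP a⌉₊ := by omega
        exact_mod_cast this
      rw [le_div_iff₀ hk] at h5
      push_cast
      linarith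
  refine ⟨fun n a ha => ⟨LP_le_of_packs (packs_OPT ha), total_le ha⟩, key4, ?_, key3, key2, key,
    ?_⟩
  · intro n a ha h4
    exact key4 n a ha n id Function.injective_id (fun i _ => ⟨i, rfl⟩) h4
  · intro n a ha h3
    apply le_antisymm
    · exact Nat.sInf_le (main_big ha (Nat.le_ceil _) h3)
    · exact Nat.ceil_le.2 (LP_le_of_packs (packs_OPT ha))
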