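import Vale.Agent.P302.Free

open Vale.Agent.P302

/-- Bin packing and its configuration LP; `|a| = ∑ j, a j` is the total size and `k = ⌈LP⌉`.
(0) `LP ≤ OPT` and `|a| ≤ LP`. (1) If the items whose size lies in
`((k + q - |a|) / (k + q - 1), 1/3]` can be packed into `q ≥ 1` bins, then `OPT ≤ k + q`.
(2) If the items whose size lies in `((k + 1 - |a|) / k, 1/3]` have total size at most `1`, then
`OPT ≤ k + 1`. (3) If `|a| ≤ 2 k / 3 + 1`, then `OPT ≤ k + 1`. (4) If `LP ≤ 3`, then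
`OPT ≤ k + 1`. -/
theorem Vale.Agent.Results.P302.FreeSpace.result :
    (∀ (n : ℕ) (a : Fin n → ℚ), IsInstance a →
      LP a ≤ OPT a ∧ ((∑ j, a j : ℚ) : ℝ) ≤ LP a) ∧
    (∀ (n : ℕ) (a : Fin n → ℚ), IsInstance a → ∀ q : ℕ, 1 ≤ q →
      (∃ f : Fin n → Fin q, ∀ b : Fin q,
        ∑ i with (((⌈LP a⌉₊ : ℚ) + q - ∑ j, a j) / ((⌈LP a⌉₊ : ℚ) + q - 1) < a i ∧
          a i ≤ 1 / 3 ∧ f i = b), a i ≤ 1) →
      OPT a ≤ ⌈LP a⌉₊ + q) ∧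
    (∀ (n : ℕ) (a : Fin n → ℚ), IsInstance a →
      (∑ i with (((⌈LP a⌉₊ : ℚ) + 1 - ∑ j, a j) / (⌈LP a⌉₊ : ℚ) < a i ∧ a i ≤ 1 / 3), a i ≤ 1) →
      OPT a ≤ ⌈LP a⌉₊ + 1) ∧
    (∀ (n : ℕ) (a : Fin n → ℚ), IsInstance a → ∑ j, a j ≤ 2 / 3 * (⌈LP a⌉₊ : ℚ) + 1 →
      OPT a ≤ ⌈LP a⌉₊ + 1) ∧
    (∀ (n : ℕ) (a : Fin n → ℚ), IsInstance a → LP a ≤ 3 → OPT a ≤ ⌈LP a⌉₊ + 1) := by
  classical
  have key : ∀ (n : ℕ) (a : Fin n → ℚ), IsInstance a → ∀ q : ℕ, 1 ≤ q →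
      (∃ f : Fin n → Fin q, ∀ b : Fin q,
        ∑ i with (((⌈LP a⌉₊ : ℚ) + q - ∑ j, a j) / ((⌈LP a⌉₊ : ℚ) + q - 1) < a i ∧
          a i ≤ 1 / 3 ∧ f i = b), a i ≤ 1) →
      OPT a ≤ ⌈LP a⌉₊ + q := by
    intro n a ha q hq ⟨f, hf⟩
    apply Nat.sInf_le
    have htot := total_le' ha (Nat.le_ceil (LP a))
    have hq' : (1 : ℚ) ≤ q := by exact_mod_cast hq
    refine main_gen ha hq (Nat.le_ceil _)
      (((⌈LP a⌉₊ : ℚ) + q - ∑ j, a j) / ((⌈LP a⌉₊ : ℚ) + q - 1)) (fun i hi => ?_)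
      ⟨f, fun b => ?_⟩
    · have hk : (0 : ℚ) < (⌈LP a⌉₊ : ℚ) := by
        have h6 : a i ≤ ∑ j, a j :=
          Finset.single_le_sum (fun j _ => (ha j).1.le) (Finset.mem_univ i)
        have := (ha i).1
        linarith
      have hD : (0 : ℚ) < (⌈LP a⌉₊ : ℚ) + q - 1 := by linarith
      rw [le_div_iff₀ hD] at hi
      push_cast
      linarith
    · refine le_trans (Finset.sum_le_sum_of_subset_of_nonneg ?_ (fun i _ _ => (ha i).1.le)) (hf b)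
      intro i hi
      rw [Finset.mem_filter, Finset.mem_filter] at hi
      obtain ⟨⟨_, h1, h2⟩, h3⟩ := hi
      rw [Finset.mem_filter]
      exact ⟨Finset.mem_univ _, h1, h2, h3⟩
  have key2 : ∀ (n : ℕ) (a : Fin n → ℚ), IsInstance a →
      (∑ i with (((⌈LP a⌉₊ : ℚ) + 1 - ∑ j, a j) / (⌈LP a⌉₊ : ℚ) < a i ∧ a i ≤ 1 / 3), a i ≤ 1) →
      OPT a ≤ ⌈LP a⌉₊ + 1 := by
    intro n a ha h
    refine key n a ha 1 le_rfl ⟨fun _ => 0, fun b => ?_⟩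
    refine le_trans (Finset.sum_le_sum_of_subset_of_nonneg ?_ (fun i _ _ => (ha i).1.le)) h
    intro i hi
    rw [Finset.mem_filter] at hi ⊢
    refine ⟨hi.1, ?_, hi.2.2.1⟩
    have h1 := hi.2.1
    rw [Nat.cast_one, add_sub_cancel_right] at h1
    exact h1
  have key3 : ∀ (n : ℕ) (a : Fin n → ℚ), IsInstance a →
      ∑ j, a j ≤ 2 / 3 * (⌈LP a⌉₊ : ℚ) + 1 → OPT a ≤ ⌈LP a⌉₊ + 1 := by
    intro n a ha h3
    apply key2 n a ha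
    have htot := total_le' ha (Nat.le_ceil (LP a))
    have he : (Finset.univ.filter fun i => ((⌈LP a⌉₊ : ℚ) + 1 - ∑ j, a j) / (⌈LP a⌉₊ : ℚ) < a i ∧
        a i ≤ 1 / 3) = ∅ := by
      apply Finset.filter_eq_empty_iff.2
      rintro i _ ⟨h1, h2⟩
      have hk : (0 : ℚ) < (⌈LP a⌉₊ : ℚ) := by
        have h6 : a i ≤ ∑ j, a j :=
          Finset.single_le_sum (fun j _ => (ha j).1.le) (Finset.mem_univ i)
        have := (ha i).1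
        linarith
      rw [div_lt_iff₀ hk] at h1
      nlinarith
    rw [he, Finset.sum_empty]
    norm_num
  refine ⟨fun n a ha => ⟨LP_le_of_packs (packs_OPT ha), total_le ha⟩, key, key2, key3, ?_⟩
  intro n a ha h3
  apply key3 n a ha
  have htot := total_le' ha (Nat.le_ceil (LP a))
  have hk : ⌈LP a⌉₊ ≤ 3 := Nat.ceil_le.2 (by exact_mod_cast h3)
  have h4 : (⌈LP a⌉₊ : ℚ) ≤ 3 := by exact_mod_cast hk
  linarith
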