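import Vale.Agent.P302.H8Main

/-!
P302: the modified integer round-up inequality for every bin packing instance whose configuration
LP has value at most four.
-/

open Vale.Agent.P302H8

namespace Vale.Agent.Results.P302.LPAtMostFour

/-- Every bin packing instance with `LP(I) ≤ 4` satisfies `OPT(I) ≤ ⌈LP(I)⌉ + 1`. -/
theorem result (n : ℕ) (a : Fin n → ℚ) (ha : ∀ i, 0 < a i ∧ a i ≤ 1) (h : LP a ≤ 4) :
    OPT a ≤ ⌈LP a⌉₊ + 1 :=
  le_four ha h

end Vale.Agent.Results.P302.LPAtMostFour
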