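import Vale.Agent.P302.Main
import Vale.Agent.P302.Low

open Vale.Agent.P302

/-- Bin packing and its configuration LP. (0) `LP ≤ OPT`. (1) If the items whose size lies in
`(1/⌈LP⌉, 1/3]` can be packed into `q ≥ 1` bins, then `OPT ≤ ⌈LP⌉ + q`. (2) So if these items have
total size at most `1`, then `OPT ≤ ⌈LP⌉ + 1`. (3) `OPT ≤ ⌈LP⌉ + 1` for every instance with
`LP ≤ 3`. (4) If all sizes are greater than `1/3`, then `OPT = ⌈LP⌉`. -/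
theorem Vale.Agent.Results.P302.MediumItems.result :
    (∀ (n : ℕ) (a : Fin n → ℚ), IsInstance a → LP a ≤ OPT a) ∧
    (∀ (n : ℕ) (a : Fin n → ℚ), IsInstance a → ∀ q : ℕ, 1 ≤ q →
      (∃ f : Fin n → Fin q, ∀ b : Fin q,
        ∑ i with (1 / (⌈LP a⌉₊ : ℚ) < a i ∧ a i ≤ 1 / 3 ∧ f i = b), a i ≤ 1) →
      OPT a ≤ ⌈LP a⌉₊ + q) ∧
    (∀ (n : ℕ) (a : Fin n → ℚ), IsInstance a →
      (∑ i with (1 / (⌈LP a⌉₊ : ℚ) < a i ∧ a i ≤ 1 / 3), a i ≤ 1) → OPT a ≤ ⌈LP a⌉₊ + 1) ∧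
    (∀ (n : ℕ) (a : Fin n → ℚ), IsInstance a → LP a ≤ 3 → OPT a ≤ ⌈LP a⌉₊ + 1) ∧
    (∀ (n : ℕ) (a : Fin n → ℚ), IsInstance a → (∀ i, 1 / 3 < a i) → OPT a = ⌈LP a⌉₊) := by
  classical
  have key : ∀ (n : ℕ) (a : Fin n → ℚ), IsInstance a → ∀ q : ℕ, 1 ≤ q →
      (∃ f : Fin n → Fin q, ∀ b : Fin q,
        ∑ i with (1 / (⌈LP a⌉₊ : ℚ) < a i ∧ a i ≤ 1 / 3 ∧ f i = b), a i ≤ 1) →
      OPT a ≤ ⌈LP a⌉₊ + q := by
    intro n a ha q hq ⟨f, hf⟩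
    apply Nat.sInf_le
    refine main ha hq (Nat.le_ceil _) ⟨f, fun b => ?_⟩
    refine le_trans (Finset.sum_le_sum_of_subset_of_nonneg ?_ (fun i _ _ => (ha i).1.le)) (hf b)
    intro i hi
    rw [Finset.mem_filter, Finset.mem_filter] at hi
    obtain ⟨⟨_, h1, h2⟩, h3⟩ := hi
    rw [Finset.mem_filter]
    refine ⟨Finset.mem_univ _, ?_, h2, h3⟩
    have hk : (0 : ℚ) < (⌈LP a⌉₊ : ℚ) := by
      by_contra hcon
      have h4 : (0 : ℚ) ≤ (⌈LP a⌉₊ : ℚ) := Nat.cast_nonneg _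
      have h5 : (⌈LP a⌉₊ : ℚ) = 0 := le_antisymm (not_lt.1 hcon) h4
      rw [h5] at h1
      norm_num at h1
    rw [div_lt_iff₀ hk]
    exact h1
  have key2 : ∀ (n : ℕ) (a : Fin n → ℚ), IsInstance a →
      (∑ i with (1 / (⌈LP a⌉₊ : ℚ) < a i ∧ a i ≤ 1 / 3), a i ≤ 1) → OPT a ≤ ⌈LP a⌉₊ + 1 := by
    intro n a ha h
    refine key n a ha 1 le_rfl ⟨fun _ => 0, fun b => ?_⟩
    refine le_trans (Finset.sum_le_sum_of_subset_of_nonneg ?_ (fun i _ _ => (ha i).1.le)) h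
    intro i hi
    rw [Finset.mem_filter] at hi ⊢
    exact ⟨hi.1, hi.2.1, hi.2.2.1⟩
  refine ⟨fun n a ha => LP_le_of_packs (packs_OPT ha), key, key2, ?_, ?_⟩
  · intro n a ha h3
    apply key2 n a ha
    have hk : ⌈LP a⌉₊ ≤ 3 := Nat.ceil_le.2 (by exact_mod_cast h3)
    have he : (Finset.univ.filter fun i => 1 / (⌈LP a⌉₊ : ℚ) < a i ∧ a i ≤ 1 / 3) = ∅ := by
      apply Finset.filter_eq_empty_iff.2
      rintro i _ ⟨h1, h2⟩
      rcases Nat.eq_zero_or_pos ⌈LP a⌉₊ with h0 | h0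
      · have h4 := (Nat.ceil_eq_zero.1 h0)
        have h5 := (total_le ha).trans h4
        have h6 : a i ≤ ∑ j, a j :=
          Finset.single_le_sum (fun j _ => (ha j).1.le) (Finset.mem_univ i)
        have h7 : (∑ j, a j : ℚ) ≤ 0 := by exact_mod_cast h5
        linarith [(ha i).1]
      · have h4 : (⌈LP a⌉₊ : ℚ) ≤ 3 := by exact_mod_cast hk
        have h5 : (0 : ℚ) < (⌈LP a⌉₊ : ℚ) := by exact_mod_cast h0
        have h6 : (1 : ℚ) / 3 ≤ 1 / (⌈LP a⌉₊ : ℚ) := one_div_le_one_div_of_le h5 h4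
        linarith
    rw [he, Finset.sum_empty]
    norm_num
  · intro n a ha h3
    apply le_antisymm
    · exact Nat.sInf_le (main_big ha (Nat.le_ceil _) h3)
    · exact Nat.ceil_le.2 (LP_le_of_packs (packs_OPT ha))
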